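import Mathlib
import Vale.Agent.P033.Main

namespace Vale.Agent.Results.P033.Ryser

/-- The circulant Hadamard conjecture: a real circulant Hadamard matrix of order `n ≥ 1` exists
exactly when `n = 1` or `n = 4`. -/
theorem result (n : ℕ) (hn : 1 ≤ n) :
    (∃ H : Matrix (Fin n) (Fin n) ℝ,
      (∀ i j, H i j = 1 ∨ H i j = -1) ∧
      H * H.transpose = (n : ℝ) • (1 : Matrix (Fin n) (Fin n) ℝ) ∧
      ∃ h : ZMod n → ℝ, ∀ i j : Fin n, H i j = h (((j : ℕ) : ZMod n) - ((i : ℕ) : ZMod n))) ↔
    n = 1 ∨ n = 4 := by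
  constructor
  · rintro ⟨H, hpm, hH, h, hc⟩
    obtain ⟨m, rfl⟩ : ∃ m, n = m + 1 := ⟨n - 1, by omega⟩
    have hcast : ∀ j : Fin (m + 1), ((j : ℕ) : ZMod (m + 1)) = j :=
      fun j => ZMod.natCast_zmod_val (n := m + 1) j
    have hc' : ∀ i j : Fin (m + 1), H i j = H 0 (j - i) := by
      intro i j
      rw [hc, hc, hcast, hcast, hcast, hcast]
      congr 1
      exact (sub_zero (j - i : Fin (m + 1))).symm
    let a : Fin (m + 1) → ℤ := fun j => if H 0 j = 1 then 1 else -1
    have ha : ∀ j, (a j : ℝ) = H 0 j := by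
      intro j
      simp only [a]
      split_ifs with h1
      · rw [h1]
        simp
      · rw [(hpm 0 j).resolve_left h1]
        simp
    apply Vale.Agent.P033.seq_main a
    · intro j
      simp only [a]
      split_ifs <;> simp
    · intro t
      have h1 := congrFun (congrFun hH 0) t
      rw [Matrix.mul_apply, ← Equiv.sum_comp (Equiv.addRight t)] at h1
      simp only [Matrix.transpose_apply, Equiv.coe_addRight, hc' t, add_sub_cancel_right,
        Matrix.smul_apply, Matrix.one_apply, smul_eq_mul, ← ha] at h1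
      have h2 : ((∑ l, a (l + t) * a l : ℤ) : ℝ) =
          ((if t = 0 then ((m + 1 : ℕ) : ℤ) else 0 : ℤ) : ℝ) := by
        push_cast
        rw [h1]
        by_cases h3 : t = 0
        · simp [h3]
        · simp [h3, Ne.symm h3]
      exact_mod_cast h2
  · rintro (rfl | rfl)
    · refine ⟨1, ?_, by simp, fun _ => 1, ?_⟩
      · intro i j
        left
        rw [Subsingleton.elim i j, Matrix.one_apply_eq]
      · intro i j
        rw [Subsingleton.elim i j, Matrix.one_apply_eq]
    · refine ⟨!![1, 1, 1, -1; -1, 1, 1, 1; 1, -1, 1, 1; 1, 1, -1, 1], ?_, ?_,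
        fun x => if x = 3 then -1 else 1, ?_⟩
      · intro i j
        fin_cases i <;> fin_cases j <;> simp
      · ext i j
        fin_cases i <;> fin_cases j <;> simp [Matrix.mul_apply, Fin.sum_univ_four] <;> norm_num
      · intro i j
        fin_cases i <;> fin_cases j <;> simp <;> decide

end Vale.Agent.Results.P033.Ryser
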